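import Mathlib
import Crest.Agent.Lib.LT.AddExpLaw
import Crest.Agent.Lib.LT.AddExpLines
import Crest.Agent.Lib.LT.ChartFamily

/-!
# (2c) of S0351 at a point of the stratum `k` of the standard law.

`wOf x j = x j` for `j < r`, `wOf x j = 1` for `j ≥ r`. For `χ = φ ∘ qE`, with `φ` a bounded ring hom
from the coefficient ring of the stratum, this gives `PointData`, hence `hP`.
-/

set_option autoImplicit false
set_option linter.unusedSectionVars false

open Crest.LubinTate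

namespace Crest.Agent.LT.AddExp

open Crest.Agent.LT.Std Crest.Agent.Lib.LT.EvalS

variable {R : Type*} [NormedField R] [IsUltrametricDist R] [CompleteSpace R]
variable {p : ℕ} [hp : Fact p.Prime] {n k r : ℕ}

/-- The sequence of a point: `w_j = x_j`, `j < r`, and `w_j = 1` for `j ≥ r`. -/
noncomputable def wOf {r : ℕ} (x : Fin r → R) (j : ℕ) : R := if h : j < r then x ⟨j, h⟩ else 1

theorem wOf_of_lt {r : ℕ} (x : Fin r → R) {j : ℕ} (h : j < r) : wOf x j = x ⟨j, h⟩ := by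
  simp [wOf, h]

theorem wOf_self {r : ℕ} (x : Fin r → R) : wOf x r = 1 := by
  simp [wOf]

theorem hyp_wOf {r : ℕ} (hk : 1 ≤ k) (x : Fin r → R) (hx : ‖x‖ < 1) : Hyp p k r (wOf x) ‖x‖ where
  hk := hk
  hwr := wOf_self x
  hρ0 := norm_nonneg _
  hρ1 := hx
  hwlt := fun j hj => by
    rw [wOf_of_lt x hj]
    exact norm_le_pi_norm x _

variable [CharP R p]

/-- `PointData` for `χ = φ ∘ qE`. -/
theorem pointData_of_hom (hk : 1 ≤ k) (hkn : k < n)
    (φ : MvPowerSeries (Fin (n - k)) (GaloisField p n) →+* R) (hφ : ∀ f, ‖φ f‖ ≤ 1)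
    (x : Fin (n - k) → R) (hx : ∀ j, φ (MvPowerSeries.X j) = x j) :
    PointData p n k (n - k) (φ.comp (qE p n k hk)) (wOf x) where
  hn := by omega
  hχ := fun a => by
    rw [RingHom.comp_apply]
    exact hφ _
  hχp := by
    rw [RingHom.comp_apply, qE_natCast_p, map_zero]
  hlow := fun j hj1 hjk => by
    have hlt : j - 1 < n - 1 := by omega
    rw [stdU_of_lt p n hlt, RingHom.comp_apply, qE_X_of_lt p n k hk _ (by simp; omega), map_zero]
  hhigh := fun j hj => by
    rcases hj.lt_or_eq with hj | rfl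
    · have hlt : k + j - 1 < n - 1 := by omega
      rw [stdU_of_lt p n hlt, RingHom.comp_apply, wOf_of_lt _ hj]
      have h2 : (⟨k + j - 1, hlt⟩ : Fin (n - 1)) = stratEmb n k hk ⟨j, hj⟩ := rfl
      rw [h2, qE_X_emb, hx]
    · have hge : ¬ (k + (n - k) - 1 < n - 1) := by omega
      rw [stdU_of_ge p n hge, map_one, wOf_self]

/-- **`hP` at a point of the stratum `k` of the standard law.** -/
theorem norm_pHom_sub_Aadd (hk : 1 ≤ k) (hkn : k < n)
    (φ : MvPowerSeries (Fin (n - k)) (GaloisField p n) →+* R) (hφ : ∀ f, ‖φ f‖ ≤ 1)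
    (x : Fin (n - k) → R) (hx : ∀ j, φ (MvPowerSeries.X j) = x j) (hx1 : ‖x‖ < 1)
    {u : R} (hu : ‖u‖ < 1) :
    ‖Crest.Agent.Lib.LT.Eval1.ev1 (mulSeries (((stdLaw p n).map (qE p n k hk)).map φ) p) u -
        Aadd p k (n - k) (wOf x) u‖ ≤
      gg p k (n - k) (wOf x) (gg p k (n - k) (wOf x) ‖u‖) := by
  rw [map_map_law]
  exact (pointData_of_hom hk hkn φ hφ x hx).norm_pH_sub_Aadd (hyp_wOf hk x hx1) hu

end Crest.Agent.LT.AddExp

namespace Crest.Agent.LT.Chart

open Crest.Agent.LT.Std Crest.Agent.Lib.LT.EvalS Crest.Agent.LT.AddExp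

variable {R : Type*} [NontriviallyNormedField R] [IsUltrametricDist R] [CompleteSpace R]
variable {p : ℕ} [hp : Fact p.Prime] {n k r : ℕ} [Algebra (GaloisField p n) R] [CharP R p]

/-- **`hP` for a stratum whose family is the standard law.** -/
theorem Stratum.norm_pAt_sub_Aadd (D : Stratum p k (n - k) (GaloisField p n)) (hk : 1 ≤ k)
    (hkn : k < n) (hHW : D.HW = (stdLaw p n).map (qE p n k hk)) (ξ : Pt (n - k) R) {u : R}
    (hu : ‖u‖ < 1) :
    ‖D.pAt ξ u - Aadd p k (n - k) (wOf ξ.1) u‖ ≤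
      gg p k (n - k) (wOf ξ.1) (gg p k (n - k) (wOf ξ.1) ‖u‖) := by
  rw [D.pAt_eq, Stratum.HAt, hHW]
  refine norm_pHom_sub_Aadd hk hkn (D.evA ξ) (D.norm_evA_le_one ξ) ξ.1 (fun j => ?_) ξ.2 hu
  rw [Stratum.evA_apply, MvPowerSeries.map_X]
  exact ev_X _ _

end Crest.Agent.LT.Chart
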