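import Mathlib

/-!
# Compactness extraction for adically complete rings with finite residue ring

`exists_subseq_const`: diagonal subsequence in a countable product of finite types.
`exists_limit_ringHom`: a sequence of local endomorphisms of a complete ring with finite quotients
has a subsequence converging (uniformly mod `I ^ c`) to a ring endomorphism.
-/

set_option autoImplicit false

open Filter Topology

namespace Crest.Agent.LT

universe u v

/-- Diagonal extraction: a sequence in a countable product of finite types has a subsequence which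
is eventually constant in every coordinate. -/
theorem exists_subseq_const {ι : Type u} [Countable ι] (F : ι → Type v) [∀ i, Finite (F i)]
    (x : ℕ → ∀ i, F i) :
    ∃ e : ℕ → ℕ, StrictMono e ∧ ∀ i, ∃ J, ∀ j ≥ J, x (e j) i = x (e J) i := by
  classical
  letI : ∀ i, TopologicalSpace (F i) := fun _ => ⊥
  haveI : ∀ i, DiscreteTopology (F i) := fun _ => ⟨rfl⟩
  obtain ⟨a, e, he, hlim⟩ := CompactSpace.tendsto_subseq x
  refine ⟨e, he, fun i => ?_⟩
  have h1 : Tendsto (fun j => x (e j) i) atTop (𝓝 (a i)) := tendsto_pi_nhds.mp hlim i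
  rw [nhds_discrete, tendsto_pure] at h1
  obtain ⟨J, hJ⟩ := eventually_atTop.mp h1
  exact ⟨J, fun j hj => by rw [hJ j hj, hJ J le_rfl]⟩

section Limit

variable {A : Type u} [CommRing A] (I : Ideal A)

/-- The map induced on `A ⧸ I ^ c` by a ring hom with `ψ I ⊆ I`. -/
noncomputable def quotMap (ψ : A →+* A) (hψ : ∀ a ∈ I, ψ a ∈ I) (c : ℕ) : A ⧸ I ^ c →+* A ⧸ I ^ c :=
  Ideal.quotientMap (I ^ c) ψ (by
    rw [← Ideal.map_le_iff_le_comap, Ideal.map_pow]
    apply Ideal.pow_right_mono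
    rw [Ideal.map_le_iff_le_comap]
    exact fun a ha => hψ a ha)

@[simp] theorem quotMap_mk (ψ : A →+* A) (hψ : ∀ a ∈ I, ψ a ∈ I) (c : ℕ) (a : A) :
    quotMap I ψ hψ c (Ideal.Quotient.mk _ a) = Ideal.Quotient.mk _ (ψ a) := rfl

variable [IsAdicComplete I A]

/-- **Compactness**: a sequence `ψ_j` of endomorphisms of `A` with `ψ_j I ⊆ I` together with a
countable family of elements `t_j d` has a subsequence converging to a ring endomorphism `ψ` and a
family `t`: modulo `I ^ c`, eventually `ψ_{e j} = ψ` (uniformly) and `t_{e j} d = t d`. -/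
theorem exists_limit (hfg : I.FG) [Finite (A ⧸ I)] {D : Type v} [Countable D]
    (ψ : ℕ → A →+* A) (hψ : ∀ j, ∀ a ∈ I, ψ j a ∈ I) (t : ℕ → D → A) :
    ∃ (e : ℕ → ℕ) (Ψ : A →+* A) (τ : D → A), StrictMono e ∧ (∀ a ∈ I, Ψ a ∈ I) ∧
      (∀ c, ∃ J, ∀ j ≥ J, ∀ a, ψ (e j) a - Ψ a ∈ I ^ c) ∧
      (∀ c d, ∃ J, ∀ j ≥ J, t (e j) d - τ d ∈ I ^ c) := by
  classical
  haveI hfin : ∀ c : ℕ, Finite (A ⧸ I ^ c) := fun c => Ideal.finite_quotient_pow hfg c
  -- the index type and the finite factors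
  let ι : Type v := ULift.{v} ℕ ⊕ (ULift.{v} ℕ × D)
  let F : ι → Type u := fun i => match i with
    | Sum.inl c => (A ⧸ I ^ c.down) → (A ⧸ I ^ c.down)
    | Sum.inr cd => A ⧸ I ^ cd.1.down
  haveI : ∀ i, Finite (F i) := by
    rintro (c | ⟨c, d⟩)
    · exact Pi.finite
    · exact hfin _
  let x : ℕ → ∀ i, F i := fun j i => match i with
    | Sum.inl c => quotMap I (ψ j) (hψ j) c.down
    | Sum.inr cd => Ideal.Quotient.mk _ (t j cd.2)
  obtain ⟨e, he, hconst⟩ := exists_subseq_const F x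
  have hconst1 : ∀ c : ℕ, ∃ J, ∀ j ≥ J, ∀ a : A,
      Ideal.Quotient.mk (I ^ c) (ψ (e j) a) = Ideal.Quotient.mk (I ^ c) (ψ (e J) a) := by
    intro c
    obtain ⟨J, hJ⟩ := hconst (Sum.inl ⟨c⟩)
    refine ⟨J, fun j hj a => ?_⟩
    have := congrFun (hJ j hj) (Ideal.Quotient.mk _ a)
    exact this
  have hconst2 : ∀ (c : ℕ) (d : D), ∃ J, ∀ j ≥ J,
      Ideal.Quotient.mk (I ^ c) (t (e j) d) = Ideal.Quotient.mk (I ^ c) (t (e J) d) := by
    intro c d
    obtain ⟨J, hJ⟩ := hconst (Sum.inr (⟨c⟩, d))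
    exact ⟨J, fun j hj => hJ j hj⟩
  choose J1 hJ1 using hconst1
  choose J2 hJ2 using hconst2
  -- the limit ring hom
  let f : (n : ℕ) → A →+* A ⧸ I ^ n := fun n => (Ideal.Quotient.mk (I ^ n)).comp (ψ (e (J1 n)))
  have hf : ∀ {m n : ℕ} (hle : m ≤ n), (Ideal.Quotient.factorPow I hle).comp (f n) = f m := by
    intro m n hle
    ext a
    simp only [RingHom.comp_apply, f]
    have e1 : Ideal.Quotient.factorPow I hle (Ideal.Quotient.mk (I ^ n) (ψ (e (J1 n)) a)) =
        Ideal.Quotient.mk (I ^ m) (ψ (e (J1 n)) a) := rfl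
    rw [e1]
    -- compare at a common large index
    let j := max (J1 n) (J1 m)
    have h1 := hJ1 n j (le_max_left _ _) a
    have h2 := hJ1 m j (le_max_right _ _) a
    rw [← h2]
    have hle' : I ^ n ≤ I ^ m := Ideal.pow_le_pow_right hle
    have h3 := congrArg (Ideal.Quotient.factorPow I hle) h1
    exact h3.symm
  let Ψ : A →+* A := IsAdicComplete.liftRingHom I f hf
  have hΨ : ∀ (c : ℕ) (a : A), Ideal.Quotient.mk (I ^ c) (Ψ a) =
      Ideal.Quotient.mk (I ^ c) (ψ (e (J1 c)) a) := fun c a =>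
    IsAdicComplete.mk_liftRingHom I f hf c a
  -- the limit family
  have hτ : ∀ d : D, ∃ L : A, ∀ c,
      t (e (J2 c d)) d ≡ L [SMOD (I ^ c • ⊤ : Submodule A A)] := by
    intro d
    refine IsPrecomplete.prec' (I := I) (fun c => t (e (J2 c d)) d) ?_
    intro m n hmn
    rw [SModEq.sub_mem]
    simp only [smul_eq_mul, Ideal.mul_top]
    rw [← Ideal.Quotient.eq]
    let j := max (J2 n d) (J2 m d)
    have h1 := hJ2 n d j (le_max_left _ _)
    have h2 := hJ2 m d j (le_max_right _ _)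
    rw [← h2]
    have h3 := congrArg (Ideal.Quotient.factorPow I hmn) h1
    exact h3
  choose τ hτ' using hτ
  refine ⟨e, Ψ, τ, he, ?_, ?_, ?_⟩
  · intro a ha
    have h1 : Ideal.Quotient.mk (I ^ 1) (Ψ a) = Ideal.Quotient.mk (I ^ 1) (ψ (e (J1 1)) a) :=
      hΨ 1 a
    rw [Ideal.Quotient.eq, pow_one] at h1
    have h2 := hψ (e (J1 1)) a ha
    have := I.add_mem h1 h2
    simpa using this
  · intro c
    refine ⟨J1 c, fun j hj a => ?_⟩
    rw [← Ideal.Quotient.eq, hΨ c a]
    exact hJ1 c j hj a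
  · intro c d
    refine ⟨J2 c d, fun j hj => ?_⟩
    rw [← Ideal.Quotient.eq, hJ2 c d j hj, Ideal.Quotient.eq]
    have := SModEq.sub_mem.mp (hτ' d c)
    simpa using this

end Limit

end Crest.Agent.LT
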