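import Mathlib

/-!
# (2a) of S0351: the map `Ψ_H(y) = lim_N [p^N]_H (y^(q^-N))` on the open unit ball

Everything is abstract: `R` is a complete ultrametric normed field of characteristic `p`, perfect;
the `[p]`-map of a law `H` is a function `P : R → R` close to `x ↦ x ^ q` on the open unit ball and
contracting `‖x - y‖ ↦ ‖x - y‖ ^ (p ^ k)`, `k ≥ 1`.
-/

set_option autoImplicit false
set_option linter.unusedSectionVars false
set_option linter.unusedVariables false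

namespace Crest.Agent.LT.PsiT

open Filter Topology

section Roots

variable {R : Type*} [NormedField R]
variable (p : ℕ) [hp : Fact p.Prime] [CharP R p] [PerfectRing R p]

/-- the `p ^ n`-th root in a perfect ring -/
noncomputable def qroot (n : ℕ) (x : R) : R := (iterateFrobeniusEquiv R p n).symm x

lemma qroot_pow (n : ℕ) (x : R) : (qroot p n x) ^ p ^ n = x := by
  have := (iterateFrobeniusEquiv R p n).apply_symm_apply x
  rwa [iterateFrobeniusEquiv_def] at this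

lemma qroot_of_pow (n : ℕ) (x : R) : qroot p n (x ^ p ^ n) = x := by
  have := (iterateFrobeniusEquiv R p n).symm_apply_apply x
  rwa [iterateFrobeniusEquiv_def] at this

lemma qroot_sub (n : ℕ) (x y : R) : qroot p n (x - y) = qroot p n x - qroot p n y :=
  map_sub (iterateFrobeniusEquiv R p n).symm x y

lemma qroot_add (n : ℕ) (x y : R) : qroot p n (x + y) = qroot p n x + qroot p n y :=
  map_add (iterateFrobeniusEquiv R p n).symm x y

lemma qroot_zero (n : ℕ) : qroot (R := R) p n 0 = 0 :=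
  map_zero (iterateFrobeniusEquiv R p n).symm

lemma norm_qroot_pow (n : ℕ) (x : R) : ‖qroot p n x‖ ^ p ^ n = ‖x‖ := by
  rw [← norm_pow, qroot_pow]

lemma norm_qroot_lt_one {n : ℕ} {x : R} (hx : ‖x‖ < 1) : ‖qroot p n x‖ < 1 := by
  by_contra h
  push Not at h
  have : (1 : ℝ) ≤ ‖qroot p n x‖ ^ p ^ n := one_le_pow₀ h
  rw [norm_qroot_pow] at this
  linarith

lemma sub_pow_char_pow' (x y : R) (m : ℕ) : (x - y) ^ p ^ m = x ^ p ^ m - y ^ p ^ m :=
  sub_pow_char_pow x y m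

end Roots

variable {R : Type*} [NormedField R] [IsUltrametricDist R] [CompleteSpace R]
variable {p : ℕ} [hp : Fact p.Prime] [CharP R p] [PerfectRing R p]

/-- The data of a `[p]`-map `P` on the open unit ball, `q = p ^ n`. -/
structure PsiData (R : Type*) [NormedField R] (p n k : ℕ) where
  P : R → R
  ρ : ℝ
  ρ_nonneg : 0 ≤ ρ
  ρ_lt : ρ < 1
  k_pos : 1 ≤ k
  close : ∀ x : R, ‖x‖ < 1 → ‖P x - x ^ p ^ n‖ ≤ ρ
  lip : ∀ x y : R, ‖x‖ < 1 → ‖y‖ < 1 → ‖P x - P y‖ ≤ ‖x - y‖ ^ p ^ k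

namespace PsiData

variable {n k : ℕ} (D : PsiData R p n k)

lemma P_mem {x : R} (hx : ‖x‖ < 1) (hn : 0 < n) : ‖D.P x‖ < 1 := by
  have h1 : ‖x ^ p ^ n‖ < 1 := by
    rw [norm_pow]
    exact pow_lt_one₀ (norm_nonneg _) hx (pow_ne_zero _ hp.out.ne_zero)
  have h2 : D.P x = (D.P x - x ^ p ^ n) + x ^ p ^ n := by ring
  rw [h2]
  refine lt_of_le_of_lt (IsUltrametricDist.norm_add_le_max _ _) (max_lt ?_ h1)
  exact lt_of_le_of_lt (D.close x hx) D.ρ_lt

lemma iter_mem (hn : 0 < n) {x : R} (hx : ‖x‖ < 1) (N : ℕ) : ‖D.P^[N] x‖ < 1 := by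
  induction N generalizing x with
  | zero => simpa using hx
  | succ N ih => rw [Function.iterate_succ_apply]; exact ih (D.P_mem hx hn)

/-- `Q = p ^ k ≥ 2`. -/
lemma two_le_Q (D : PsiData R p n k) : 2 ≤ p ^ k :=
  le_trans hp.out.two_le (Nat.le_self_pow (by have := D.k_pos; omega) p)

lemma iter_lip (hn : 0 < n) {x y : R} (hx : ‖x‖ < 1) (hy : ‖y‖ < 1) (N : ℕ) :
    ‖D.P^[N] x - D.P^[N] y‖ ≤ ‖x - y‖ ^ (p ^ k) ^ N := by
  induction N generalizing x y with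
  | zero => simp
  | succ N ih =>
    rw [Function.iterate_succ_apply, Function.iterate_succ_apply]
    refine (ih (D.P_mem hx hn) (D.P_mem hy hn)).trans ?_
    refine (pow_le_pow_left₀ (norm_nonneg _) (D.lip x y hx hy) _).trans ?_
    rw [← pow_mul, pow_succ' (p ^ k) N]

/-- `Ψ_N y = [p^N] (y ^ (q ^ -N))`. -/
noncomputable def psiN (n : ℕ) (D : PsiData R p n k) (N : ℕ) (y : R) : R :=
  D.P^[N] ((qroot p n)^[N] y)

lemma root_iter_mem {x : R} (hx : ‖x‖ < 1) (N : ℕ) : ‖(qroot p n)^[N] x‖ < 1 := by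
  induction N generalizing x with
  | zero => simpa using hx
  | succ N ih => rw [Function.iterate_succ_apply]; exact ih (norm_qroot_lt_one p hx)

lemma psiN_mem (hn : 0 < n) {y : R} (hy : ‖y‖ < 1) (N : ℕ) : ‖psiN n D N y‖ < 1 :=
  D.iter_mem hn (root_iter_mem hy N) N

lemma psiN_zero_eq (y : R) : psiN n D 0 y = y := rfl

/-- one step: `‖Ψ_{N+1} y - Ψ_N y‖ ≤ ρ ^ (Q ^ N)` -/
lemma psiN_succ_sub (hn : 0 < n) {y : R} (hy : ‖y‖ < 1) (N : ℕ) :
    ‖psiN n D (N + 1) y - psiN n D N y‖ ≤ D.ρ ^ (p ^ k) ^ N := by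
  set z := (qroot p n)^[N] y with hz
  have hz1 : ‖z‖ < 1 := root_iter_mem hy N
  have e1 : (qroot p n)^[N + 1] y = qroot p n z := by
    rw [Function.iterate_succ_apply']
  have e2 : psiN n D (N + 1) y = D.P^[N] (D.P (qroot p n z)) := by
    unfold psiN
    rw [e1, Function.iterate_succ_apply]
  have e3 : psiN n D N y = D.P^[N] z := rfl
  rw [e2, e3]
  have hr : ‖qroot p n z‖ < 1 := norm_qroot_lt_one p hz1
  refine (D.iter_lip hn (D.P_mem hr hn) hz1 N).trans ?_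
  refine pow_le_pow_left₀ (norm_nonneg _) ?_ _
  have := D.close _ hr
  rwa [qroot_pow] at this

lemma rho_pow_le (N : ℕ) : D.ρ ^ (p ^ k) ^ N ≤ D.ρ ^ N := by
  refine pow_le_pow_of_le_one D.ρ_nonneg D.ρ_lt.le ?_
  exact (Nat.lt_pow_self D.two_le_Q).le

lemma cauchy_psiN (hn : 0 < n) {y : R} (hy : ‖y‖ < 1) : CauchySeq (fun N => psiN n D N y) := by
  refine cauchySeq_of_le_geometric D.ρ 1 D.ρ_lt (fun N => ?_)
  rw [one_mul, dist_comm, dist_eq_norm]
  exact (D.psiN_succ_sub hn hy N).trans (D.rho_pow_le N)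

/-- `Ψ y := lim_N Ψ_N y`. -/
noncomputable def psi (n : ℕ) (D : PsiData R p n k) (y : R) : R :=
  limUnder atTop (fun N => psiN n D N y)

lemma tendsto_psiN (hn : 0 < n) {y : R} (hy : ‖y‖ < 1) :
    Tendsto (fun N => psiN n D N y) atTop (𝓝 (psi n D y)) :=
  (D.cauchy_psiN hn hy).tendsto_limUnder

lemma rho_pow_anti {a b : ℕ} (h : a ≤ b) : D.ρ ^ (p ^ k) ^ b ≤ D.ρ ^ (p ^ k) ^ a :=
  pow_le_pow_of_le_one D.ρ_nonneg D.ρ_lt.le (Nat.pow_le_pow_right (by have := D.two_le_Q; omega) h)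

lemma psiN_sub_le (hn : 0 < n) {y : R} (hy : ‖y‖ < 1) (N M : ℕ) :
    ‖psiN n D (N + M) y - psiN n D N y‖ ≤ D.ρ ^ (p ^ k) ^ N := by
  induction M with
  | zero =>
    simp only [add_zero, sub_self, norm_zero]
    exact pow_nonneg D.ρ_nonneg _
  | succ M ih =>
    have e : psiN n D (N + (M + 1)) y - psiN n D N y
        = (psiN n D (N + M + 1) y - psiN n D (N + M) y) + (psiN n D (N + M) y - psiN n D N y) := by
      rw [show N + (M + 1) = N + M + 1 by ring]; ring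
    rw [e]
    refine (IsUltrametricDist.norm_add_le_max _ _).trans (max_le ?_ ih)
    exact (D.psiN_succ_sub hn hy _).trans (D.rho_pow_anti (by omega))

/-- `‖Ψ y - Ψ_N y‖ ≤ ρ ^ (Q ^ N)` -/
lemma psi_sub_psiN_le (hn : 0 < n) {y : R} (hy : ‖y‖ < 1) (N : ℕ) :
    ‖psi n D y - psiN n D N y‖ ≤ D.ρ ^ (p ^ k) ^ N := by
  have h1 : Tendsto (fun M => ‖psiN n D (N + M) y - psiN n D N y‖) atTop
      (𝓝 ‖psi n D y - psiN n D N y‖) := by
    have h2 : Tendsto (fun M => psiN n D (N + M) y) atTop (𝓝 (psi n D y)) :=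
      (D.tendsto_psiN hn hy).comp
        (tendsto_atTop_mono (fun M => Nat.le_add_left M N) tendsto_id)
    exact (h2.sub_const _).norm
  exact le_of_tendsto' h1 (fun M => D.psiN_sub_le hn hy N M)

/-- `‖Ψ y - y‖ ≤ ρ` -/
lemma psi_sub_self_le (hn : 0 < n) {y : R} (hy : ‖y‖ < 1) : ‖psi n D y - y‖ ≤ D.ρ := by
  simpa [psiN] using D.psi_sub_psiN_le hn hy 0

lemma psi_mem (hn : 0 < n) {y : R} (hy : ‖y‖ < 1) : ‖psi n D y‖ < 1 := by
  have h2 : psi n D y = (psi n D y - y) + y := by ring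
  rw [h2]
  exact lt_of_le_of_lt (IsUltrametricDist.norm_add_le_max _ _)
    (max_lt (lt_of_le_of_lt (D.psi_sub_self_le hn hy) D.ρ_lt) hy)

/-- `P` is continuous on the ball, in the sequential form we use. -/
lemma tendsto_P_of_tendsto {u : ℕ → R} {a : R} (hu : ∀ N, ‖u N‖ < 1) (ha : ‖a‖ < 1)
    (h : Tendsto u atTop (𝓝 a)) : Tendsto (fun N => D.P (u N)) atTop (𝓝 (D.P a)) := by
  rw [tendsto_iff_norm_sub_tendsto_zero] at h ⊢
  have hQ : 1 ≤ p ^ k := Nat.one_le_pow _ _ hp.out.pos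
  have h0 : Tendsto (fun N => ‖u N - a‖ ^ p ^ k) atTop (𝓝 0) := by
    simpa [zero_pow (by omega : p ^ k ≠ 0)] using h.pow (p ^ k)
  exact squeeze_zero (fun _ => norm_nonneg _) (fun N => D.lip _ _ (hu N) ha) h0

/-- `[p]_H ∘ Ψ = Ψ ∘ (x ↦ x ^ q)`. -/
lemma P_psi (hn : 0 < n) {y : R} (hy : ‖y‖ < 1) : D.P (psi n D y) = psi n D (y ^ p ^ n) := by
  have hq : ‖y ^ p ^ n‖ < 1 := by
    rw [norm_pow]; exact pow_lt_one₀ (norm_nonneg _) hy (pow_ne_zero _ hp.out.ne_zero)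
  have h1 := D.tendsto_P_of_tendsto (fun N => D.psiN_mem hn hy N) (D.psi_mem hn hy)
    (D.tendsto_psiN hn hy)
  have h2 : (fun N => D.P (psiN n D N y)) = fun N => psiN n D (N + 1) (y ^ p ^ n) := by
    funext N
    unfold psiN
    rw [Function.iterate_succ_apply (qroot p n), qroot_of_pow, Function.iterate_succ_apply' D.P]
  rw [h2] at h1
  have h3 := (tendsto_add_atTop_iff_nat 1).2 (D.tendsto_psiN hn hq)
  exact tendsto_nhds_unique h1 h3

end PsiData

/-- a commutative group law on the open unit ball, given through total functions. -/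
structure BallLaw (R : Type*) [NormedField R] where
  add : R → R → R
  neg : R → R
  add_mem : ∀ x y : R, ‖x‖ < 1 → ‖y‖ < 1 → ‖add x y‖ < 1
  neg_mem : ∀ x : R, ‖x‖ < 1 → ‖neg x‖ < 1
  add_comm : ∀ x y : R, ‖x‖ < 1 → ‖y‖ < 1 → add x y = add y x
  add_assoc : ∀ x y z : R, ‖x‖ < 1 → ‖y‖ < 1 → ‖z‖ < 1 → add (add x y) z = add x (add y z)
  zero_add : ∀ x : R, ‖x‖ < 1 → add 0 x = x
  neg_add : ∀ x : R, ‖x‖ < 1 → add (neg x) x = 0
  lip : ∀ x y x' y' : R, ‖x‖ < 1 → ‖y‖ < 1 → ‖x'‖ < 1 → ‖y'‖ < 1 →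
    ‖add x y - add x' y'‖ ≤ max ‖x - x'‖ ‖y - y'‖

namespace PsiData

variable {n k : ℕ} (D : PsiData R p n k)

lemma psi_add_aux (hn : 0 < n) (LH LG : BallLaw R) (ρ' : ℝ) (hρ' : 0 ≤ ρ') (hρ'1 : ρ' < 1)
    (hhom : ∀ x y : R, ‖x‖ < 1 → ‖y‖ < 1 → D.P (LH.add x y) = LH.add (D.P x) (D.P y))
    (hclose : ∀ x y : R, ‖x‖ < 1 → ‖y‖ < 1 → ‖LH.add x y - LG.add x y‖ ≤ ρ')
    (hroot : ∀ x y : R, ‖x‖ < 1 → ‖y‖ < 1 →
      qroot p n (LG.add x y) = LG.add (qroot p n x) (qroot p n y))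
    {x y : R} (hx : ‖x‖ < 1) (hy : ‖y‖ < 1) (N : ℕ) :
    ‖psiN n D N (LG.add x y) - LH.add (psiN n D N x) (psiN n D N y)‖ ≤ ρ' ^ (p ^ k) ^ N := by
  have hroots : (qroot p n)^[N] (LG.add x y) =
      LG.add ((qroot p n)^[N] x) ((qroot p n)^[N] y) := by
    induction N with
    | zero => rfl
    | succ N ih =>
      rw [Function.iterate_succ_apply', Function.iterate_succ_apply', Function.iterate_succ_apply',
        ih, hroot _ _ (root_iter_mem hx N) (root_iter_mem hy N)]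
  have hhomN : ∀ (N : ℕ) (u v : R), ‖u‖ < 1 → ‖v‖ < 1 →
      D.P^[N] (LH.add u v) = LH.add (D.P^[N] u) (D.P^[N] v) := by
    intro N
    induction N with
    | zero => intro u v _ _; rfl
    | succ N ih =>
      intro u v hu hv
      rw [Function.iterate_succ_apply, hhom u v hu hv, ih _ _ (D.P_mem hu hn) (D.P_mem hv hn),
        Function.iterate_succ_apply, Function.iterate_succ_apply]
  set u := (qroot p n)^[N] x with hu
  set v := (qroot p n)^[N] y with hv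
  have hu1 : ‖u‖ < 1 := root_iter_mem hx N
  have hv1 : ‖v‖ < 1 := root_iter_mem hy N
  unfold psiN
  rw [hroots, ← hu, ← hv, ← hhomN N u v hu1 hv1]
  refine (D.iter_lip hn (LG.add_mem u v hu1 hv1) (LH.add_mem u v hu1 hv1) N).trans ?_
  refine pow_le_pow_left₀ (norm_nonneg _) ?_ _
  rw [norm_sub_rev]
  exact hclose u v hu1 hv1

/-- `Ψ` is additive `Γ(𝔪) → H(𝔪)`. -/
theorem psi_add (hn : 0 < n) (LH LG : BallLaw R) (ρ' : ℝ) (hρ' : 0 ≤ ρ') (hρ'1 : ρ' < 1)
    (hhom : ∀ x y : R, ‖x‖ < 1 → ‖y‖ < 1 → D.P (LH.add x y) = LH.add (D.P x) (D.P y))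
    (hclose : ∀ x y : R, ‖x‖ < 1 → ‖y‖ < 1 → ‖LH.add x y - LG.add x y‖ ≤ ρ')
    (hroot : ∀ x y : R, ‖x‖ < 1 → ‖y‖ < 1 →
      qroot p n (LG.add x y) = LG.add (qroot p n x) (qroot p n y))
    {x y : R} (hx : ‖x‖ < 1) (hy : ‖y‖ < 1) :
    psi n D (LG.add x y) = LH.add (psi n D x) (psi n D y) := by
  have hxy := LG.add_mem x y hx hy
  have h1 := D.tendsto_psiN hn hxy
  have h2 : Tendsto (fun N => LH.add (psiN n D N x) (psiN n D N y)) atTop
      (𝓝 (LH.add (psi n D x) (psi n D y))) := by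
    rw [tendsto_iff_norm_sub_tendsto_zero]
    have ha := (D.tendsto_psiN hn hx)
    have hb := (D.tendsto_psiN hn hy)
    rw [tendsto_iff_norm_sub_tendsto_zero] at ha hb
    have hm : Tendsto (fun N => max ‖psiN n D N x - psi n D x‖ ‖psiN n D N y - psi n D y‖) atTop
        (𝓝 (max 0 0)) := ha.max hb
    rw [max_self] at hm
    exact squeeze_zero (fun _ => norm_nonneg _)
      (fun N => LH.lip _ _ _ _ (D.psiN_mem hn hx N) (D.psiN_mem hn hy N) (D.psi_mem hn hx)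
        (D.psi_mem hn hy)) hm
  have hdiff : Tendsto (fun N => psiN n D N (LG.add x y) -
      LH.add (psiN n D N x) (psiN n D N y)) atTop (𝓝 0) := by
    have hpow : Tendsto (fun N : ℕ => ρ' ^ (p ^ k) ^ N) atTop (𝓝 0) := by
      refine squeeze_zero (fun _ => pow_nonneg hρ' _) (fun N => ?_)
        (tendsto_pow_atTop_nhds_zero_of_lt_one hρ' hρ'1)
      exact pow_le_pow_of_le_one hρ' hρ'1.le (Nat.lt_pow_self D.two_le_Q).le
    rw [tendsto_zero_iff_norm_tendsto_zero]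
    exact squeeze_zero (fun _ => norm_nonneg _)
      (fun N => D.psi_add_aux hn LH LG ρ' hρ' hρ'1 hhom hclose hroot hx hy N) hpow
  have h3 := h1.sub h2
  exact sub_eq_zero.1 (tendsto_nhds_unique h3 hdiff)

/-- **Functoriality**: `θ : H' → H` with `θ = a` mod `ρ'`, `a` commuting with `q`-th roots:
`θ ∘ Ψ_{H'} = Ψ_H ∘ a`. -/
theorem theta_psi (hn : 0 < n) (D' : PsiData R p n k) (θ a : R → R) (ρ' : ℝ) (hρ' : 0 ≤ ρ')
    (hρ'1 : ρ' < 1)
    (hmem : ∀ x : R, ‖x‖ < 1 → ‖θ x‖ < 1)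
    (hamem : ∀ x : R, ‖x‖ < 1 → ‖a x‖ < 1)
    (hlip : ∀ x y : R, ‖x‖ < 1 → ‖y‖ < 1 → ‖θ x - θ y‖ ≤ ‖x - y‖)
    (hhom : ∀ x : R, ‖x‖ < 1 → θ (D'.P x) = D.P (θ x))
    (hclose : ∀ x : R, ‖x‖ < 1 → ‖θ x - a x‖ ≤ ρ')
    (hroot : ∀ x : R, ‖x‖ < 1 → a (qroot p n x) = qroot p n (a x))
    {y : R} (hy : ‖y‖ < 1) : θ (psi n D' y) = psi n D (a y) := by
  have hay := hamem y hy
  have hhomN : ∀ (N : ℕ) (u : R), ‖u‖ < 1 → θ (D'.P^[N] u) = D.P^[N] (θ u) := by
    intro N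
    induction N with
    | zero => intro u _; rfl
    | succ N ih =>
      intro u hu
      rw [Function.iterate_succ_apply, ih _ (D'.P_mem hu hn), hhom u hu,
        Function.iterate_succ_apply]
  have hrootN : ∀ (N : ℕ) (u : R), ‖u‖ < 1 → a ((qroot p n)^[N] u) = (qroot p n)^[N] (a u) := by
    intro N
    induction N with
    | zero => intro u _; rfl
    | succ N ih =>
      intro u hu
      rw [Function.iterate_succ_apply', Function.iterate_succ_apply',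
        hroot _ (root_iter_mem hu N), ih u hu]
  have h1 : Tendsto (fun N => θ (psiN n D' N y)) atTop (𝓝 (θ (psi n D' y))) := by
    have ha := D'.tendsto_psiN hn hy
    rw [tendsto_iff_norm_sub_tendsto_zero] at ha ⊢
    exact squeeze_zero (fun _ => norm_nonneg _)
      (fun N => hlip _ _ (D'.psiN_mem hn hy N) (D'.psi_mem hn hy)) ha
  have h2 := D.tendsto_psiN hn hay
  have hdiff : Tendsto (fun N => θ (psiN n D' N y) - psiN n D N (a y)) atTop (𝓝 0) := by
    have hpow : Tendsto (fun N : ℕ => ρ' ^ (p ^ k) ^ N) atTop (𝓝 0) := by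
      refine squeeze_zero (fun _ => pow_nonneg hρ' _) (fun N => ?_)
        (tendsto_pow_atTop_nhds_zero_of_lt_one hρ' hρ'1)
      exact pow_le_pow_of_le_one hρ' hρ'1.le (Nat.lt_pow_self D.two_le_Q).le
    rw [tendsto_zero_iff_norm_tendsto_zero]
    refine squeeze_zero (fun _ => norm_nonneg _) (fun N => ?_) hpow
    set u := (qroot p n)^[N] y with hu
    have hu1 : ‖u‖ < 1 := root_iter_mem hy N
    have e1 : psiN n D' N y = D'.P^[N] u := rfl
    have e2 : psiN n D N (a y) = D.P^[N] (a u) := by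
      unfold psiN
      rw [← hrootN N y hy]
    rw [e1, e2, hhomN N u hu1]
    refine (D.iter_lip hn (hmem u hu1) (hamem u hu1) N).trans ?_
    exact pow_le_pow_left₀ (norm_nonneg _) (hclose u hu1) _
  exact sub_eq_zero.1 (tendsto_nhds_unique (h1.sub h2) hdiff)

end PsiData

end Crest.Agent.LT.PsiT
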